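import Vale.Agent.P280Z.Pr.Defs

/-!
# P280X, block K2: the case `(2, 2; 7)` (rows)
-/

open Vale.Agent.P272.K Vale.Agent.P285.H281.FD Vale.Agent.P281Z
open Vale.Agent.P280Z Vale.Agent.P280Z.Rh Vale.Agent.P280Z.Pr

noncomputable section

namespace Vale.Agent.P280X.K2

section alg
variable {A : Type} [CommRing A] [Algebra ℝ A]

/-- one family: `R k` are the invariant classes of degree `k` -/
structure Hf (I : A →ₗ[ℝ] ℝ) (R : ℕ → A → Prop) (x g : A) (b : ℝ) (p t : ℕ → A) (e f : A) :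
    Prop where
  mul : ∀ k l u v, R k u → R l v → R (k + l) (u * v)
  add : ∀ k u v, R k u → R k v → R k (u + v)
  smul : ∀ k (c : ℝ) u, R k u → R k (c • u)
  van : ∀ k u, 5 < k → R k u → u = 0
  hg : R 1 g
  he : R 2 e
  hf : R 3 f
  cub : x ^ 3 = b • (g * x ^ 2) - e * x + f
  t1 : t 1 = 3 * x - b • g
  t2 : t 2 = 3 * x ^ 2 - (2 * b) • (x * g) + b ^ 2 • g ^ 2 - 2 * e
  rc : ∀ k, t (k + 3) = t 1 * t (k + 2) - (3 * x ^ 2 - (2 * b) • (x * g) + e) * t (k + 1)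
  inv : ∀ k, R k (p k - t k)
  pos : 0 < I (x ^ 2 * g ^ 5)
  nn : 0 ≤ I (x ^ 3 * g ^ 4)
  hr : (∃ σ : ℝ, e = σ • g ^ 2) ∨
    I (x ^ 2 * (e * g ^ 3)) ^ 2 < I (x ^ 2 * g ^ 5) * I (x ^ 2 * (e ^ 2 * g))

/-- both families -/
structure Bo (I : A →ₗ[ℝ] ℝ) (R R' : ℕ → A → Prop) (x g : A) (b c : ℝ) (p t t' : ℕ → A)
    (e f e' f' : A) : Prop where
  l : Hf I R x g b p t e f
  r : Hf I R' g x c p t' e' f'
  int0 : ∀ k u, 0 < k → R k u → R' k u → u = 0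

theorem Bo.symm {I : A →ₗ[ℝ] ℝ} {R R' : ℕ → A → Prop} {x g : A} {b c : ℝ} {p t t' : ℕ → A}
    {e f e' f' : A} (h : Bo I R R' x g b c p t t' e f e' f') :
    Bo I R' R g x c b p t' t e' f' e f :=
  ⟨h.r, h.l, fun k u hk h1 h2 => h.int0 k u hk h2 h1⟩

end alg

/-- a statement for all such data -/
def ForB (P : ∀ {A : Type} [CommRing A] [Algebra ℝ A], (A →ₗ[ℝ] ℝ) → A → A → ℝ → ℝ → (ℕ → A) →
    A → A → Prop) : Prop :=
  ∀ {A : Type} [CommRing A] [Algebra ℝ A] (I : A →ₗ[ℝ] ℝ) (R R' : ℕ → A → Prop) (x g : A)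
    (b c : ℝ) (p t t' : ℕ → A) (e f e' f' : A), Bo I R R' x g b c p t t' e f e' f' →
    P I x g b c p e e'

/-- row NE -/
def NE : Prop := ForB fun _ _ _ b c _ _ _ => b = c

/-- row ZE -/
def ZE : Prop := ForB fun _ _ _ b c _ _ _ => b = 0 → c = 0 → False

/-- row TW -/
def TW : Prop := ForB fun _ _ g b c _ e _ => b = c → 0 < b → b = 2 ∧ e = 2 * g ^ 2

/-- row FI -/
def FI : Prop := ForB fun I x g b c p e e' => b = 2 → c = 2 → e = 2 * g ^ 2 → e' = 2 * x ^ 2 →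
  ∀ h : ℕ → _, h 0 = 1 → (∀ k : ℕ, ((k + 1 : ℕ) : ℝ) • h (k + 1) =
    ∑ i ∈ Finset.range (k + 1), p (i + 1) * h (k - i)) → I (h 7) < 0

/-- row INT0 -/
def INT0 : Prop := ∀ (T : CT) (V : Mf 7) (B : Bas T V) i j, Two B i j → ∀ k u, 0 < k →
  Iv (nsm (B.F i)) k u → Iv (nsm (B.F j)) k u → u = 0

/-- row HRY -/
def HRY : Prop := ∀ (T : CT) (V : Mf 7) (B : Bas T V) i j, Two B i j → (B.Q {j}).d = 2 →
  ∀ (b : ℝ) e f, Iv (nsm (B.F j)) 2 e → Iv (nsm (B.F j)) 3 f →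
  B.H j ^ 3 = b • (B.H i * B.H j ^ 2) - e * B.H j + f → (∃ σ : ℝ, e = σ • B.H i ^ 2) ∨
    T.int V (B.H j ^ 2 * (e * B.H i ^ 3)) ^ 2 <
      T.int V (B.H j ^ 2 * B.H i ^ 5) * T.int V (B.H j ^ 2 * (e ^ 2 * B.H i))

/-- row GEO -/
def GEO : Prop := ∀ (T : CT) (V : Mf 7) (B : Bas T V) i j, Two B i j → (B.Q {j}).d = 2 →
  ∃ b e f, Hf (T.int V) (Iv (nsm (B.F j))) (B.H j) (B.H i) b (T.ps V (VB.tan 7 V.X))
    (tr T (B.Q {j}).sub.hol) e f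

/-- the sequence of the complete symmetric functions -/
def hs {A : Type} [CommRing A] [Algebra ℝ A] (p : ℕ → A) : ℕ → A
  | 0 => 1
  | k + 1 => ((k + 1 : ℕ) : ℝ)⁻¹ • ∑ i ∈ Finset.range (k + 1), p (i + 1) * hs p (k - i)
decreasing_by omega

theorem Hf.nonneg {A : Type} [CommRing A] [Algebra ℝ A] {I : A →ₗ[ℝ] ℝ} {R : ℕ → A → Prop}
    {x g : A} {b : ℝ} {p t : ℕ → A} {e f : A} (h : Hf I R x g b p t e f) : 0 ≤ b := by
  have g2 := h.mul 1 1 _ _ h.hg h.hg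
  have g4 := h.mul 2 2 _ _ g2 g2
  have z1 := h.van _ _ (by norm_num) (h.mul _ _ _ _ h.he g4)
  have z2 := h.van _ _ (by norm_num) (h.mul _ _ _ _ h.hf g4)
  have k := h.nn
  rw [show x ^ 3 * g ^ 4 = b • (x ^ 2 * g ^ 5) by
    linear_combination (norm := algebra) g ^ 4 * h.cub - x * z1 + z2, map_smul, smul_eq_mul] at k
  exact nonneg_of_mul_nonneg_left k h.pos

theorem asm (ne : NE) (ze : ZE) (tw : TW) (fi : FI) (i0 : INT0) (geo : GEO)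
    (seg : ∀ T : CT, Th T → ∀ (V : Mf 7), Cls 7 V → ∀ h : ℕ → T.H V, h 0 = 1 →
      (∀ k : ℕ, ((k + 1 : ℕ) : ℝ) • h (k + 1) = ∑ i ∈ Finset.range (k + 1),
        T.ps V (VB.tan 7 V.X) (i + 1) * h (k - i)) → 0 ≤ T.int V (h 7))
    (T : CT) (V : Mf 7) (B : Bas T V) (i j : B.J) (h : Two B i j) (di : (B.Q {i}).d = 2)
    (dj : (B.Q {j}).d = 2) : False := by
  have h' : Two B j i := ⟨h.th, h.cls, h.ne.symm, fun k => (h.all k).symm, h.pos⟩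
  obtain ⟨b, e, f, l⟩ := geo T V B i j h dj
  obtain ⟨c, e', f', r⟩ := geo T V B j i h' di
  have k : Bo _ _ _ _ _ _ _ _ _ _ _ _ _ _ := ⟨l, r, i0 T V B j i h'⟩
  have bc : b = c := ne _ _ _ _ _ _ _ _ _ _ _ _ _ _ k
  have b0 : 0 < b := l.nonneg.lt_of_ne' fun z => ze _ _ _ _ _ _ _ _ _ _ _ _ _ _ k z (bc ▸ z)
  obtain ⟨b2, e2⟩ := tw _ _ _ _ _ _ _ _ _ _ _ _ _ _ k bc b0
  obtain ⟨c2, e2'⟩ := tw _ _ _ _ _ _ _ _ _ _ _ _ _ _ k.symm bc.symm (bc ▸ b0)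
  have rc : ∀ k : ℕ, ((k + 1 : ℕ) : ℝ) • hs (T.ps V (VB.tan 7 V.X)) (k + 1) =
      ∑ i ∈ Finset.range (k + 1), T.ps V (VB.tan 7 V.X) (i + 1) *
        hs (T.ps V (VB.tan 7 V.X)) (k - i) := fun k => by
    rw [hs, smul_smul, mul_inv_cancel₀ (Nat.cast_ne_zero.2 k.succ_ne_zero), one_smul]
  exact (seg T h.th V h.cls _ (by rw [hs]) rc).not_gt
    (fi _ _ _ _ _ _ _ _ _ _ _ _ _ _ k b2 c2 e2 e2' _ (by rw [hs]) rc)

end Vale.Agent.P280X.K2
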