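import Vale.Agent.P280X.K2.Defs

/-!
# P280X, block K2: row FI
-/

namespace Vale.Agent.P280X.K2

namespace FiH

variable {A : Type} [CommRing A] [Algebra ℝ A] {I : A →ₗ[ℝ] ℝ} {R R' : ℕ → A → Prop} {x g : A}
  {b c : ℝ} {p t t' : ℕ → A} {e f e' f' : A}

theorem pw (h : Hf I R x g b p t e f) (k : ℕ) : R (k + 1) (g ^ (k + 1)) := by
  induction k with
  | zero => simpa using h.hg
  | succ k ih => rw [pow_succ]; exact h.mul _ _ _ _ ih h.hg

theorem side (h : Hf I R x g 2 p t (2 * g ^ 2) f)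
    (C : x ^ 3 - 2 * x ^ 2 * g + 2 * x * g ^ 2 - g ^ 3 = 0) :
    t 1 = 3 * x - 2 * g ∧ t 2 = 3 * x ^ 2 - 4 * x * g ∧ t 3 = -6 * x * g ^ 2 + 4 * g ^ 3 ∧
    t 4 = -10 * x ^ 2 * g ^ 2 + 11 * x * g ^ 3 - 2 * g ^ 4 ∧
    t 5 = -7 * x ^ 2 * g ^ 3 + 24 * x * g ^ 4 - 16 * g ^ 5 ∧
    t 6 = 28 * x ^ 2 * g ^ 4 - 28 * x * g ^ 5 + 2 * g ^ 6 ∧
    t 7 = 28 * x ^ 2 * g ^ 5 - 81 * x * g ^ 6 + 54 * g ^ 7 := by
  have t1 : t 1 = 3 * x - 2 * g := by linear_combination (norm := algebra) h.t1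
  have t2 : t 2 = 3 * x ^ 2 - 4 * x * g := by linear_combination (norm := algebra) h.t2
  have rc : ∀ k, t (k + 3) = (3 * x - 2 * g) * t (k + 2) -
      (3 * x ^ 2 - 4 * x * g + 2 * g ^ 2) * t (k + 1) := fun k => by
    rw [← t1]
    linear_combination (norm := algebra) h.rc k
  have t3 : t 3 = -6 * x * g ^ 2 + 4 * g ^ 3 := by
    rw [rc 0, t2, t1]
    ring
  have t4 : t 4 = -10 * x ^ 2 * g ^ 2 + 11 * x * g ^ 3 - 2 * g ^ 4 := by
    rw [rc 1, t3, t2]
    linear_combination (-9 * x + 6 * g) * C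
  have t5 : t 5 = -7 * x ^ 2 * g ^ 3 + 24 * x * g ^ 4 - 16 * g ^ 5 := by
    rw [rc 2, t4, t3]
    linear_combination (-12 * g ^ 2) * C
  have t6 : t 6 = 28 * x ^ 2 * g ^ 4 - 28 * x * g ^ 5 + 2 * g ^ 6 := by
    rw [rc 3, t5, t4]
    linear_combination (30 * x * g ^ 2 - 34 * g ^ 3) * C
  refine ⟨t1, t2, t3, t4, t5, t6, ?_⟩
  rw [rc 4, t6, t5]
  linear_combination (21 * x * g ^ 3 + 26 * g ^ 4) * C

theorem both (h : Bo I R R' x g b c p t t' e f e' f') (k : ℕ) (β : ℝ)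
    (e : t' (k + 1) - t (k + 1) = β • (g ^ (k + 1) - x ^ (k + 1))) :
    p (k + 1) = t (k + 1) + β • g ^ (k + 1) := by
  have u := h.int0 (k + 1) _ k.succ_pos
    (h.l.add _ _ _ (h.l.inv _) (h.l.smul _ (-β) _ (pw h.l k))) (by
      rw [show p (k + 1) - t (k + 1) + (-β) • g ^ (k + 1) =
        p (k + 1) - t' (k + 1) + (-β) • x ^ (k + 1) by linear_combination (norm := algebra) e]
      exact h.r.add _ _ _ (h.r.inv _) (h.r.smul _ (-β) _ (pw h.r k)))
  linear_combination (norm := algebra) u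

theorem can (k : ℕ) {u v : A} (h : ((k + 1 : ℕ) : ℝ) • u = ((k + 1 : ℕ) : ℝ) • v) : u = v :=
  smul_right_injective A (Nat.cast_ne_zero.2 k.succ_ne_zero) h

end FiH

open FiH in
/-- **row FI** -/
theorem fi : FI := by
  intro A _ _ I R R' x g b c p t t' e f e' f' k hb hc he he' h h0 rc
  subst hb hc he he'
  have u := k.int0 3 _ (by norm_num) (k.l.add _ _ _ k.l.hf (k.l.smul _ (-1) _ (pw k.l 2))) (by
    rw [show f + (-1 : ℝ) • g ^ (2 + 1) = x ^ (2 + 1) + (-1 : ℝ) • f' by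
      linear_combination (norm := algebra) -k.l.cub - k.r.cub]
    exact k.r.add _ _ _ (pw k.r 2) (k.r.smul _ (-1) _ k.r.hf))
  have C : x ^ 3 - 2 * x ^ 2 * g + 2 * x * g ^ 2 - g ^ 3 = 0 := by
    linear_combination (norm := algebra) k.l.cub + u
  obtain ⟨a1, a2, a3, a4, a5, a6, a7⟩ := side k.l C
  obtain ⟨b1, b2, b3, b4, b5, -, -⟩ := side k.r (by linear_combination -C)
  have G : g ^ 6 = 0 := k.l.van 6 _ (by norm_num) (pw k.l 5)
  have p1 : p 1 = 3 * x + 3 * g := by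
    linear_combination (norm := algebra) a1 + both k 0 5 (by
      linear_combination (norm := algebra) b1 - a1)
  have p2 : p 2 = 3 * x ^ 2 - 4 * x * g + 3 * g ^ 2 := by
    linear_combination (norm := algebra) a2 + both k 1 3 (by
      linear_combination (norm := algebra) b2 - a2)
  have p3 : p 3 = -6 * x * g ^ 2 + 3 * g ^ 3 := by
    linear_combination (norm := algebra) a3 + both k 2 (-1) (by
      linear_combination (norm := algebra) b3 - a3 + 3 * C)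
  have p4 : p 4 = -10 * x ^ 2 * g ^ 2 + 11 * x * g ^ 3 - 11 * g ^ 4 := by
    linear_combination (norm := algebra) a4 + both k 3 (-9) (by
      linear_combination (norm := algebra) b4 - a4 + (-11 * x - 11 * g) * C)
  have p5 : p 5 = -7 * x ^ 2 * g ^ 3 + 24 * x * g ^ 4 - 41 * g ^ 5 := by
    linear_combination (norm := algebra) a5 + both k 4 (-25) (by
      linear_combination (norm := algebra) b5 - a5 + (-41 * x ^ 2 - 58 * x * g - 41 * g ^ 2) * C)
  have p6 : p 6 = 28 * x ^ 2 * g ^ 4 - 28 * x * g ^ 5 := by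
    linear_combination a6 + k.l.van 6 _ (by norm_num) (k.l.inv 6) + 2 * G
  have p7 : p 7 = 28 * x ^ 2 * g ^ 5 := by
    linear_combination a7 + k.l.van 7 _ (by norm_num) (k.l.inv 7) + (-81 * x + 54 * g) * G
  have r0 := rc 0
  have r1 := rc 1
  have r2 := rc 2
  have r3 := rc 3
  have r4 := rc 4
  have r5 := rc 5
  have r6 := rc 6
  simp only [Finset.sum_range_succ, Finset.sum_range_zero, zero_add, Nat.reduceAdd, Nat.reduceSub,
    tsub_zero, p1, p2, p3, p4, p5, p6, p7, h0] at r0 r1 r2 r3 r4 r5 r6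
  have h1 : h 1 = 3 * x + 3 * g := can 0 (by linear_combination (norm := algebra) r0)
  rw [h1] at r1 r2 r3 r4 r5 r6
  have h2 : h 2 = 6 * x ^ 2 + 7 * x * g + 6 * g ^ 2 :=
    can 1 (by linear_combination (norm := algebra) r1)
  rw [h2] at r2 r3 r4 r5 r6
  have h3 : h 3 = 30 * x ^ 2 * g - 8 * x * g ^ 2 + 19 * g ^ 3 :=
    can 2 (by linear_combination (norm := algebra) r2 + 27 * C)
  rw [h3] at r3 r4 r5 r6
  have h4 : h 4 = 64 * x ^ 2 * g ^ 2 - 49 * x * g ^ 3 + 49 * g ^ 4 :=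
    can 3 (by linear_combination (norm := algebra) r3 + (18 * x + 123 * g) * C)
  rw [h4] at r4 r5 r6
  have h5 : h 5 = 68 * x ^ 2 * g ^ 3 - 65 * x * g ^ 4 + 62 * g ^ 5 :=
    can 4 (by linear_combination (norm := algebra) r4 + (90 * x * g + 162 * g ^ 2) * C)
  rw [h5] at r5 r6
  have h6 : h 6 = 28 * x ^ 2 * g ^ 4 - 28 * x * g ^ 5 := can 5 (by
    linear_combination (norm := algebra) r5 + (132 * x * g ^ 2 - 140 * g ^ 3) * C + 61 * G)
  rw [h6] at r6
  have h7 : h 7 = (-28 : ℝ) • (x ^ 2 * g ^ 5) := can 6 (by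
    linear_combination (norm := algebra) r6 + (-138 * x * g ^ 3 - 454 * g ^ 4) * C +
      (-128 * x - 576 * g) * G)
  rw [h7, map_smul, smul_eq_mul]
  linarith [k.l.pos]

end Vale.Agent.P280X.K2
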