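import Vale.Agent.P280W.Nop

/-!
# P280X: geometric inputs for the case `(2, 2; 7)`
-/

open Set
open Vale.Agent.P272.K Vale.Agent.P285.H281.FD Vale.Agent.P281Z
open Vale.Agent.P280Z Vale.Agent.P280Z.Rh Vale.Agent.P280Z.Ma Vale.Agent.P280Z.Pr

noncomputable section

namespace Vale.Agent.P280X.K2

variable {T : CT} {n : ℕ} {V : Mf n} {B : Bas T V} {i j : B.J}

theorem y_univ (hT : T.OK) (B : Bas T V) (hc : ConnectedSpace V.X) : (B.Q univ).y = 0 := by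
  have p := (posj T hT B hc univ).2
  have e : hS B (univ : Set B.J)ᶜ = 0 := by
    rw [hS]
    exact Finset.sum_eq_zero fun k _ => if_neg (by simp)
  by_contra k
  rw [e, zero_pow k, mul_zero, map_zero] at p
  exact lt_irrefl _ p

/-- a class of positive degree which is invariant under all families vanishes -/
theorem inv0 (hT : T.OK) (B : Bas T V) (hc : ConnectedSpace V.X) {k : ℕ} (hk : 0 < k) {a : T.H V}
    (h : ∀ l, Iv (nsm (B.F l)) k a) (l : B.J) : a = 0 := by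
  obtain ⟨b, b1, rfl⟩ := (B.Q univ).ex_dg hT (h l).1 fun m _ => (h m).2
  rw [← b1, hT.rg.pr_zero _ _ _ (by rw [y_univ hT B hc]; exact hk), map_zero]

theorem int0 (h : Two B i j) {k : ℕ} (hk : 0 < k) {a : T.H V} (hi : Iv (nsm (B.F i)) k a)
    (hj : Iv (nsm (B.F j)) k a) : a = 0 :=
  inv0 h.th.ok B h.cls.1.1 hk (fun l => by rcases h.all l with rfl | rfl <;> assumption) i

theorem ex_iv (hT : T.OK) {k : ℕ} {a : T.H V} (h : Iv (nsm (B.F j)) k a) :
    ∃ b, T.Dg (B.Q {j}).Y k b ∧ a = T.pull (B.Q {j}).sub.hol b :=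
  (B.Q {j}).ex_dg hT h.1 fun m hm => by
    rw [mem_singleton_iff.1 hm]
    exact h.2

/-- the volume of the fibres -/
theorem push_top (hT : T.OK) (B : Bas T V) (hc : ConnectedSpace V.X) (j : B.J) :
    ∃ c : ℝ, 0 < c ∧ T.push (B.Q {j}).π (B.H j ^ (B.Q {j}).d) = algebraMap ℝ _ c := by
  obtain ⟨c, e⟩ := prj_push hT (B.Q {j}).sub (B.Q {j}).dim ((B.Q _).conn hc)
    (dg_pow hT (hT.po.deg (B.nn j)) (B.Q {j}).d)
  obtain ⟨⟨w, hw, e0⟩, p⟩ := posj T hT B hc {j}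
  rw [prj_hS, e0, ← map_pow, prj_int hT (B.Q {j}).sub e] at p
  exact ⟨c, (mul_pos_iff_of_pos_right
    (kc_vol hT hw ((B.Q {j}).conn hc).toNonempty.some)).1 p, e⟩

theorem ty_desc (hT : T.OK) (B : Bas T V) (hc : ConnectedSpace V.X) (j : B.J) {b : T.H (B.Q {j}).Y}
    (h : T.pull (B.Q {j}).sub.hol b ∈ T.Ty V) : b ∈ T.Ty (B.Q {j}).Y := by
  obtain ⟨c, c0, e⟩ := push_top hT B hc j
  have k := hT.tp.push (B.Q {j}).sub (mul_mem (pow_mem (nn_ty hT (B.nn j)) (B.Q {j}).d) h)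
  rw [hT.pu.proj (B.Q {j}).sub, e, ← Algebra.smul_def] at k
  have k2 := (T.Ty _).smul_mem k c⁻¹
  rwa [smul_smul, inv_mul_cancel₀ c0.ne', one_smul] at k2

theorem push_low (hT : T.OK) {y d k : ℕ} {Y : Mf y} {π : V.X → Y.X} (h : Sub n y π)
    (hd : n = y + d) {a : T.H V} (ha : T.Dg V k a) (hk : k < d) : T.push π a = 0 := by
  rw [← hT.rg.pr_sum Y (T.push π a)]
  refine Finset.sum_eq_zero fun l _ => ?_
  rw [hT.pu.deg h d hd, ← ha, hT.rg.pr_pr, if_neg (by omega), map_zero]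

/-- the coefficients of the cubic relation have type `(k, k)` -/
theorem ty2 (hT : T.OK) (hc : ConnectedSpace V.X) (hd : (B.Q {j}).d = 2) {e1 e2 e3 : T.H V}
    (h1 : Iv (nsm (B.F j)) 1 e1) (h2 : Iv (nsm (B.F j)) 2 e2) (h3 : Iv (nsm (B.F j)) 3 e3)
    (h : B.H j ^ 3 = e1 * B.H j ^ 2 - e2 * B.H j + e3) : e1 ∈ T.Ty V ∧ e2 ∈ T.Ty V ∧
      e3 ∈ T.Ty V := by
  obtain ⟨a1, -, rfl⟩ := ex_iv hT h1
  obtain ⟨a2, -, rfl⟩ := ex_iv hT h2
  obtain ⟨a3, -, rfl⟩ := ex_iv hT h3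
  obtain ⟨c, c0, e⟩ := push_top hT B hc j
  rw [hd] at e
  have dx := hT.po.deg (B.nn j)
  have tx := nn_ty hT (B.nn j)
  have dim : n = (B.Q {j}).y + 2 := hd ▸ (B.Q {j}).dim
  have z1 := push_low hT (B.Q {j}).sub dim dx (by omega)
  have z0 := push_low hT (B.Q {j}).sub dim (hT.rg.dg_one V) (by omega)
  have ty : ∀ b, c • b ∈ T.Ty (B.Q {j}).Y → b ∈ T.Ty (B.Q {j}).Y := fun b k => by
    have k2 := (T.Ty _).smul_mem k c⁻¹
    rwa [smul_smul, inv_mul_cancel₀ c0.ne', one_smul] at k2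
  have pj := hT.pu.proj (B.Q {j}).sub
  have p3 : T.push (B.Q {j}).π (B.H j ^ 3) = c • a1 := by
    rw [h, mul_comm, mul_comm _ (B.H j), ← one_mul (T.pull _ a3), map_add, map_sub, pj, pj,
      pj, e, z1, z0, Algebra.smul_def]
    ring
  have p4 : T.push (B.Q {j}).π (B.H j ^ 4) = c • (a1 * a1 - a2) := by
    rw [show B.H j ^ 4 = B.H j ^ 3 * T.pull (B.Q {j}).sub.hol a1 -
        B.H j ^ 2 * T.pull (B.Q {j}).sub.hol a2 + B.H j * T.pull (B.Q {j}).sub.hol a3 by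
      linear_combination B.H j * h, map_add, map_sub, pj, pj, pj, e, z1, p3,
      Algebra.smul_def, Algebra.smul_def]
    ring
  have t1 := ty _ (p3 ▸ hT.tp.push (B.Q {j}).sub (pow_mem tx 3))
  have t2 := ty _ (p4 ▸ hT.tp.push (B.Q {j}).sub (pow_mem tx 4))
  have s1 := hT.tp.pull (B.Q {j}).sub.hol t1
  have s2 := hT.tp.pull (B.Q {j}).sub.hol (show a2 ∈ T.Ty _ by
    simpa using sub_mem (mul_mem t1 t1) t2)
  refine ⟨s1, s2, ?_⟩
  rw [show T.pull (B.Q {j}).sub.hol a3 = B.H j ^ 3 - (T.pull (B.Q {j}).sub.hol a1 * B.H j ^ 2 -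
    T.pull (B.Q {j}).sub.hol a2 * B.H j) by rw [h]; ring]
  exact sub_mem (pow_mem tx 3) (sub_mem (mul_mem s1 (pow_mem tx 2)) (mul_mem s2 tx))

/-- the class of the other family is the pull back of a Kähler class which spans the degree one -/
theorem base (h : Two B i j) : ∃ w, T.Kc (B.Q {j}).Y w ∧ B.H i = T.pull (B.Q {j}).sub.hol w ∧
    ∀ b, T.Dg (B.Q {j}).Y 1 b → ∃ s : ℝ, b = s • w := by
  have hT := h.th.ok
  obtain ⟨cV, kV⟩ := (fano_iff hT V).1 h.cls.1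
  have su : ∀ f : B.J → T.H V, ∑ k, f k = f j + f i := fun f => by
    rw [show (Finset.univ : Finset B.J) = {j, i} from Finset.ext fun k => by
      simpa using (h.all k).symm, Finset.sum_pair h.ne.symm]
  obtain ⟨⟨w, hw, e0⟩, -⟩ := posj T hT B cV {j}
  rw [hS, su, if_neg (by simp), if_pos (by simpa using h.ne), zero_add] at e0
  refine ⟨w, hw, e0, fun b hb => ⟨(B.F i).dg (T.pull (B.Q {j}).sub.hol b), ?_⟩⟩
  refine sub_eq_zero.1 (pull_inj hT (B.Q {j}).sub (B.Q {j}).dim (B.Q {j}).onto ((B.Q _).conn cV)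
    ((hT.po.kah V).2 ⟨_, kV⟩) ?_)
  have s := B.span _ (dg_pull hT (B.Q {j}).sub.hol hb)
  rw [su, (B.Q {j}).dg_pull hT rfl hb, zero_smul, zero_add] at s
  rw [map_sub, map_smul, ← e0, ← s, sub_self]

/-- the relations of Hodge and Riemann on the base, in degree two -/
theorem hrg (h : Two B i j) {m : ℕ} (hy : (B.Q {j}).y = 4 + m) {e z : T.H V}
    (he : Iv (nsm (B.F j)) 2 e) (ty : e ∈ T.Ty V) (hz : z = B.H j ^ (B.Q {j}).d)
    (h0 : T.int V (z * B.H i ^ (m + 2) * e) = 0) :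
    e = 0 ∨ 0 < T.int V (z * B.H i ^ m * e ^ 2) := by
  have hT := h.th.ok
  have cV : ConnectedSpace V.X := h.cls.1.1
  obtain ⟨b, b1, rfl⟩ := ex_iv hT he
  obtain ⟨w, hw, e0, sp⟩ := base h
  obtain ⟨c, c0, e⟩ := push_top hT B cV j
  rw [hz, e0, ← map_pow, mul_assoc, ← map_mul, prj_int hT (B.Q {j}).sub e] at h0
  by_cases k : b = 0
  · exact Or.inl (by rw [k, map_zero])
  have dw := hT.po.deg hw
  have h4 := hT.ho.hr hw 2 m (by omega) b (ty_desc hT B cV j ty) b1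
    (Qs.pd_dg (ga_ok hT _ (B.Q {j}).kah) (k := 1)
      (hT.rg.dg_mul _ (m + 1) 2 _ _ (dg_pow hT dw _) b1) (by omega) fun a ha => by
      obtain ⟨s, rfl⟩ := sp a ha
      show T.int _ _ = 0
      rw [mul_smul_comm, map_smul, show w ^ (m + 1) * b * w = w ^ (m + 2) * b by ring,
        (mul_eq_zero.1 h0).resolve_left c0.ne', smul_zero]) k
  right
  rw [hz, e0, ← map_pow, ← map_pow, mul_assoc, ← map_mul, prj_int hT (B.Q {j}).sub e,
    show w ^ m * b ^ 2 = b * b * w ^ m by ring]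
  exact mul_pos c0 (by simpa using h4)

/-- dimension seven, fibres of dimension two -/
theorem hry {V : Mf 7} {B : Bas T V} {i j : B.J} (h : Two B i j) (hd : (B.Q {j}).d = 2)
    {e : T.H V} (he : Iv (nsm (B.F j)) 2 e) (ty : e ∈ T.Ty V)
    (h0 : T.int V (B.H j ^ 2 * B.H i ^ 3 * e) = 0) :
    e = 0 ∨ 0 < T.int V (B.H j ^ 2 * B.H i * e ^ 2) := by
  have := hrg h (m := 1) (by have := (B.Q {j}).dim; omega) he ty (z := B.H j ^ 2) (by rw [hd]) h0
  rwa [pow_one] at this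

end Vale.Agent.P280X.K2
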