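import Vale.Agent.P280X.K2.Defs
import Vale.Agent.P280Z.Pr.K336
import Vale.Agent.P280Z.Pr.Alg

/-!
# P280X, block K2: row GEO from the cubic relation
-/

open Vale.Agent.P272.K Vale.Agent.P285.H281.FD Vale.Agent.P281Z
open Vale.Agent.P280Z Vale.Agent.P280Z.Rh Vale.Agent.P280Z.Pr

noncomputable section

namespace Vale.Agent.P280X.K2

/-- row CUB -/
def CUB : Prop := ∀ T : CT, Th T → ∀ {n : ℕ} {V : Mf n} (B : Bas T V), Cls n V → ∀ j,
  (B.F j).m = 1 → (B.Q {j}).d = 2 → ∀ x g, Un (nsm (B.F j)) x →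
  g = 3 * x - tr T (B.Q {j}).sub.hol 1 → ∃ e2 e3, Iv (nsm (B.F j)) 2 e2 ∧ Iv (nsm (B.F j)) 3 e3 ∧
    3 * tr T (B.Q {j}).sub.hol 2 - tr T (B.Q {j}).sub.hol 1 ^ 2 = 2 * g ^ 2 - 6 * e2 ∧
    x ^ 3 = g * x ^ 2 - e2 * x + e3

open K336H in
theorem geo31 (fax : FAX) (rd : RD) (posj : POSJ) (cub : CUB) (hry : HRY) : GEO := by
  intro T V B i j h dj
  have hT := h.th.ok
  have cV := ((fano_iff hT V).1 h.cls.1).1
  have fa := fax T hT B.F j (B.Q {j}) cV
  have hm : (B.F j).m = 1 := by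
    have h1 := rd _ _ _ _ _ _ fa
    have h2 := h.pos j
    omega
  have yj : (B.Q {j}).y = 5 := by have := (B.Q {j}).dim; omega
  have F := fa_cast fa hm dj yj
  have e := span h (fa.dt 1)
  rw [dg_t h, hm] at e
  generalize (B.F i).dg (tr T (B.Q {j}).sub.hol 1) = β at e
  have t1 : tr T (B.Q {j}).sub.hol 1 = 3 * B.H j - (-β) • B.H i := by
    rw [e]
    simp only [Algebra.smul_def, map_add, map_neg, map_ofNat, Nat.cast_one, map_one]
    ring
  obtain ⟨e2, e3, i2, i3, c2, c3⟩ := cub T h.th B h.cls j hm dj _ ((-β) • B.H i) (un h)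
    (by rw [t1, sub_sub_cancel])
  have z := F.rank _ (Al.Cn.ne_spec _)
  obtain ⟨a2, a3, a4⟩ := AlgH.nw (s := tr T (B.Q {j}).sub.hol) fun j hj => z j (by omega)
  simp only [z 3 (by norm_num), zero_mul, add_zero] at a3 a4
  have p := pos h (posj T hT B cV) dj yj
  have iv1 := iv h 1
  rw [pow_one] at iv1
  have cb : B.H j ^ 3 = (-β) • (B.H i * B.H j ^ 2) - e2 * B.H j + e3 := by
    rw [c3, smul_mul_assoc]
  have t2 : tr T (B.Q {j}).sub.hol 2 = 3 * B.H j ^ 2 - (2 * -β) • (B.H j * B.H i) +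
      (-β) ^ 2 • B.H i ^ 2 - 2 * e2 := by
    rw [t1] at c2
    linear_combination (norm := algebra) (3⁻¹ : ℝ) • c2
  have n2 : Al.Cn.ne (tr T (B.Q {j}).sub.hol) 2 =
      3 * B.H j ^ 2 - (2 * -β) • (B.H j * B.H i) + e2 := by
    rw [t2, t1] at a2
    linear_combination (norm := algebra) (2⁻¹ : ℝ) • a2
  refine ⟨-β, e2, e3, fun _ _ _ _ => RdH.iv_mul F.ok,
    fun k u v hu hv => ⟨RdH.dg_add hu.1 hv.1, by rw [map_add, map_add, hu.2, hv.2, add_zero]⟩,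
    fun k c u hu => ⟨by rw [GA.Dg, map_smul, hu.1], by rw [map_smul, map_smul, hu.2, smul_zero]⟩,
    F.van, iv1, i2, i3, cb, t1, t2, fun k => ?_, fun k => ⟨?_, F.inv k⟩, p,
    hT.po.wp_int (wp_pow hT (B.nn j) (mul_one (B.H i ^ 4) ▸
      wp_pow hT (B.nn i) (hT.po.wp_one V) 4) 3), hry T V B i j h dj _ _ _ i2 i3 cb⟩
  · rw [← n2]
    cases k with
    | zero => exact a3
    | succ k => exact a4 k
  · rw [GA.Dg, map_sub, F.dt k]
    exact congrArg (· - _) (hT.ch.deg V _ k)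

end Vale.Agent.P280X.K2
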