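import Vale.Agent.P280X.K2.Defs
import Vale.Agent.P280X.K2.Geo

/-!
# P280X, block K2, row HRY
-/

open Set
open Vale.Agent.P272.K Vale.Agent.P285.H281.FD Vale.Agent.P281Z
open Vale.Agent.P280Z Vale.Agent.P280Z.Rh Vale.Agent.P280Z.Ma Vale.Agent.P280Z.Pr

noncomputable section

namespace Vale.Agent.P280X.K2

/-- **row HRY** -/
theorem hry19 : HRY := by
  intro T V B i j h hd b e f he hf cub
  have hT := h.th.ok
  have cV : ConnectedSpace V.X := h.cls.1.1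
  have mk : ∀ k u, T.Dg (B.Q {j}).Y k u → Iv (nsm (B.F j)) k (T.pull (B.Q {j}).sub.hol u) :=
    fun k u hu => ⟨dg_pull hT _ hu, ((B.Q {j}).s4 _).2 ⟨u, rfl⟩ j rfl⟩
  obtain ⟨w, hw, e0, -⟩ := base h
  have dw := hT.po.deg hw
  have i1 : Iv (nsm (B.F j)) 1 (b • B.H i) := by
    rw [e0, ← map_smul]
    exact mk 1 _ (by rw [CT.Dg, map_smul, dw])
  have ty := (ty2 hT cV hd i1 he hf (by rw [cub, smul_mul_assoc])).2.1
  have D0 : 0 < T.int V (B.H j ^ 2 * B.H i ^ 5) := by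
    obtain ⟨c, c0, k⟩ := push_top hT B cV j
    have y5 : (B.Q {j}).y = 5 := by
      have := (B.Q {j}).dim
      omega
    rw [hd] at k
    rw [e0, ← map_pow, prj_int hT (B.Q {j}).sub k, ← y5]
    exact mul_pos c0 (kc_vol hT hw ((B.Q {j}).conn cV).toNonempty.some)
  obtain ⟨σ, hσ⟩ : ∃ σ : ℝ, T.int V (B.H j ^ 2 * (e * B.H i ^ 3)) =
      σ * T.int V (B.H j ^ 2 * B.H i ^ 5) := ⟨_, (div_mul_cancel₀ _ D0.ne').symm⟩
  have ia : Iv (nsm (B.F j)) 2 (e - σ • B.H i ^ 2) := by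
    obtain ⟨u, hu, rfl⟩ := ex_iv hT he
    rw [e0, ← map_pow, ← map_smul, ← map_sub]
    exact mk 2 _ (by rw [CT.Dg, map_sub, map_smul, hu, dg_pow hT dw 2])
  refine (hry h hd ia (sub_mem ty ((T.Ty V).smul_mem (pow_mem (nn_ty hT (B.nn i)) 2) σ)) ?_).imp
    (fun k => ⟨σ, sub_eq_zero.1 k⟩) fun k => ?_
  · rw [show B.H j ^ 2 * B.H i ^ 3 * (e - σ • B.H i ^ 2) = B.H j ^ 2 * (e * B.H i ^ 3) -
      σ • (B.H j ^ 2 * B.H i ^ 5) by
        simp only [Algebra.smul_def]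
        ring, map_sub, map_smul, hσ, smul_eq_mul, sub_self]
  · rw [show B.H j ^ 2 * B.H i * (e - σ • B.H i ^ 2) ^ 2 = B.H j ^ 2 * (e ^ 2 * B.H i) -
      (2 * σ) • (B.H j ^ 2 * (e * B.H i ^ 3)) + (σ ^ 2) • (B.H j ^ 2 * B.H i ^ 5) by
        simp only [Algebra.smul_def, map_mul, map_pow, map_ofNat]
        ring, map_add, map_sub, map_smul, map_smul, hσ, smul_eq_mul, smul_eq_mul] at k
    rw [hσ]
    nlinarith [mul_pos D0 k]

end Vale.Agent.P280X.K2
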