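import Vale.Agent.P280X.K2.Defs
import Vale.Agent.P280Z.Pr.Posj

/-!
# P280X, block K2: row INT0
-/

open Set
open Vale.Agent.P272.K Vale.Agent.P285.H281.FD Vale.Agent.P281Z
open Vale.Agent.P280Z Vale.Agent.P280Z.Rh Vale.Agent.P280Z.Pr

namespace Vale.Agent.P280X.K2

/-- **row INT0** -/
theorem int0 : INT0 := by
  intro T V B i j h k u hk h1 h2
  have hT := h.th.ok
  obtain ⟨b, hb, rfl⟩ := (B.Q univ).ex_dg hT h1.1 fun l _ => by
    rcases h.all l with rfl | rfl
    exacts [h1.2, h2.2]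
  have p := (posj T hT B h.cls.1.1 univ).2
  have y0 : (B.Q univ).y = 0 := by_contra fun e => by
    rw [show hS B univᶜ = 0 by simp [hS], zero_pow e, mul_zero, map_zero] at p
    exact lt_irrefl _ p
  rw [← hb, hT.rg.pr_zero _ _ _ (by omega), map_zero]

end Vale.Agent.P280X.K2
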