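import Vale.Agent.P280X.K2.Defs

/-!
# P280X, block K2: row NE
-/

noncomputable section

namespace Vale.Agent.P280X.K2

section alg
variable {A : Type} [CommRing A] [Algebra ℝ A] {I : A →ₗ[ℝ] ℝ} {R R' : ℕ → A → Prop}
  {x g : A} {b c : ℝ} {p t t' : ℕ → A} {e f e' f' : A}

theorem Hf.ne_half (h : Hf I R x g b p t e f) {a : A} (ha : R 2 a)
    (h3 : (x * g + a) * (x * g + a) * (x * g + a) = 0)
    (h2 : (x * g + a) * (x * g + a) * (x * x) = 0)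
    (h1 : (x * g + a) * (x * x * (x * x)) = 0) :
    2 * I (x ^ 4 * g ^ 3) = b ^ 2 * I (x ^ 2 * g ^ 5) ∧
      6 * I (x ^ 5 * g ^ 2) = b ^ 3 * I (x ^ 2 * g ^ 5) := by
  have g2 := h.mul 1 1 _ _ h.hg h.hg
  have g4 := h.mul 2 2 _ _ g2 g2
  have a2 := h.mul 2 2 _ _ ha ha
  have ag := h.mul 2 1 _ _ ha h.hg
  have z1 := h.van _ _ (by norm_num) (h.mul _ _ _ _ h.he g4)
  have z2 := h.van _ _ (by norm_num) (h.mul _ _ _ _ h.hf g4)
  have z3 := h.van _ _ (by norm_num) (h.mul _ _ _ _ a2 g2)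
  have z4 := h.van _ _ (by norm_num) (h.mul _ _ _ _ a2 ha)
  have z5 := h.van _ _ (by norm_num) (h.mul _ _ _ _ h.he (h.mul _ _ _ _ ha g2))
  have z6 := h.van _ _ (by norm_num) (h.mul _ _ _ _ h.hf ag)
  have z7 := h.van _ _ (by norm_num) (h.mul _ _ _ _ h.he a2)
  have z8 := h.van _ _ (by norm_num) (h.mul _ _ _ _ h.hf a2)
  have k1 : x ^ 3 * g ^ 4 = b • (x ^ 2 * g ^ 5) := by
    linear_combination (norm := algebra) g ^ 4 * h.cub - x * z1 + z2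
  have k2 : x ^ 3 * g ^ 2 * a = b • (x ^ 2 * g ^ 3 * a) := by
    linear_combination (norm := algebra) g ^ 2 * a * h.cub - x * z5 + g * z6
  have k3 : x ^ 3 * a ^ 2 = b • (x ^ 2 * g * a ^ 2) := by
    linear_combination (norm := algebra) a ^ 2 * h.cub - x * z7 + z8
  have e1 : x ^ 3 * g ^ 4 + x ^ 2 * g ^ 3 * a + x ^ 2 * g ^ 3 * a + x ^ 2 * g ^ 3 * a = 0 := by
    linear_combination g * h3 - 3 * x * z3 - g * z4
  have e2 : x ^ 3 * g ^ 2 * a + x ^ 2 * g * a ^ 2 + x ^ 2 * g * a ^ 2 = 0 := by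
    linear_combination x * h3 - x * z4 - g * h2
  have e3 : x ^ 4 * g ^ 3 + x ^ 3 * g ^ 2 * a + x ^ 3 * g ^ 2 * a + x ^ 2 * g * a ^ 2 = 0 := by
    linear_combination g * h2
  have e4 : x ^ 5 * g ^ 2 = x ^ 3 * a ^ 2 := by
    linear_combination 2 * g * h1 - x * h2
  have f1 := congrArg I e1
  have f2 := congrArg I e2
  have f3 := congrArg I e3
  have f4 := congrArg I e4
  rw [k1] at f1
  rw [k2] at f2 f3
  rw [k3] at f4
  simp only [map_add, map_smul, smul_eq_mul, map_zero] at f1 f2 f3 f4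
  constructor
  · linear_combination 2 * f3 - f2 - b * f1
  · linear_combination 6 * f4 + 3 * b * f2 - b ^ 2 * f1

theorem Hf.ne_van (h : Hf I R g x b p t e f) {B : A} (hB : R 2 B) :
    B * B * B = 0 ∧ B * B * (x * x) = 0 ∧ B * (x * x * (x * x)) = 0 := by
  have g2 := h.mul 1 1 _ _ h.hg h.hg
  have g4 := h.mul 2 2 _ _ g2 g2
  have a2 := h.mul 2 2 _ _ hB hB
  exact ⟨h.van _ _ (by norm_num) (h.mul _ _ _ _ a2 hB),
    h.van _ _ (by norm_num) (h.mul _ _ _ _ a2 g2), h.van _ _ (by norm_num) (h.mul _ _ _ _ hB g4)⟩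

theorem Hf.ne_two (h : Hf I R x g b p t e f) (s : ℝ) :
    R 2 (s • ((p 2 - t 2) + (b ^ 2 - 3) • (g * g) + (-2 : ℝ) • e)) :=
  h.smul _ _ _ (h.add _ _ _ (h.add _ _ _ (h.inv 2) (h.smul _ _ _ (h.mul 1 1 _ _ h.hg h.hg)))
    (h.smul _ _ _ h.he))

end alg

theorem ne : NE := by
  intro A _ _ I R R' x g b c p t t' e f e' f' h
  by_contra hn
  have hs : (2 * (c - b))⁻¹ * (2 * (c - b)) = 1 :=
    inv_mul_cancel₀ (mul_ne_zero two_ne_zero (sub_ne_zero.2 (Ne.symm hn)))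
  obtain ⟨s, hs⟩ : ∃ s : ℝ, s * (2 * (c - b)) = 1 := ⟨_, hs⟩
  have ha := h.l.ne_two s
  have hB := h.r.ne_two s
  have k : (2 * (c - b)) • (x * g) + ((p 2 - t 2) + (b ^ 2 - 3) • (g * g) + (-2 : ℝ) • e) =
      (p 2 - t' 2) + (c ^ 2 - 3) • (x * x) + (-2 : ℝ) • e' := by
    rw [h.l.t2, h.r.t2]
    algebra
  rw [← k, smul_add, smul_smul, hs, one_smul] at hB
  obtain ⟨a, hd⟩ : ∃ a, a = s • ((p 2 - t 2) + (b ^ 2 - 3) • (g * g) + (-2 : ℝ) • e) := ⟨_, rfl⟩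
  rw [← hd] at ha hB
  obtain ⟨u3, u2, u1⟩ := h.r.ne_van hB
  obtain ⟨l4, l5⟩ := h.l.ne_half ha u3 u2 u1
  have ha' : R 2 (g * x + (-1 : ℝ) • (x * g + a)) := by
    rw [show g * x + (-1 : ℝ) • (x * g + a) = (-1 : ℝ) • a by algebra]
    exact h.l.smul _ _ _ ha
  obtain ⟨w3, w2, w1⟩ := h.l.ne_van ha'
  obtain ⟨-, r5⟩ := h.r.ne_half (h.r.smul _ _ _ hB) w3 w2 w1
  have g4 := h.r.mul 2 2 _ _ (h.r.mul 1 1 _ _ h.r.hg h.r.hg) (h.r.mul 1 1 _ _ h.r.hg h.r.hg)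
  have z1 := h.r.van _ _ (by norm_num) (h.r.mul _ _ _ _ h.r.he g4)
  have z2 := h.r.van _ _ (by norm_num) (h.r.mul _ _ _ _ h.r.hf g4)
  have r3 : I (x ^ 4 * g ^ 3) = c * I (x ^ 5 * g ^ 2) := by
    rw [show x ^ 4 * g ^ 3 = c • (x ^ 5 * g ^ 2) by
      linear_combination (norm := algebra) x ^ 4 * h.r.cub - g * z1 + z2, map_smul, smul_eq_mul]
  rw [mul_comm (g ^ 5), mul_comm (g ^ 2)] at r5
  have hD := h.l.pos.ne'
  have q1 : (b * c) ^ 3 = 36 := by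
    apply mul_right_cancel₀ hD
    linear_combination (-6) * r5 - c ^ 3 * l5
  have q2 : b ^ 2 * (b * c - 3) = 0 := by
    apply mul_right_cancel₀ hD
    linear_combination 3 * l4 - c * l5 - 6 * r3
  rcases mul_eq_zero.1 q2 with z | z
  · rw [pow_eq_zero_iff two_ne_zero] at z
    rw [z] at q1
    norm_num at q1
  · rw [sub_eq_zero.1 z] at q1
    norm_num at q1

end Vale.Agent.P280X.K2
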