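import Vale.Agent.P280X.K2.Geo
import Vale.Agent.P280X.K2.Defs

/-!
# P280X, block K2: rows INT0, HRY, FI
-/

open Set
open Vale.Agent.P272.K Vale.Agent.P285.H281.FD Vale.Agent.P281Z
open Vale.Agent.P280Z Vale.Agent.P280Z.Rh Vale.Agent.P280Z.Ma Vale.Agent.P280Z.Pr

noncomputable section

namespace Vale.Agent.P280X.K2.R75

theorem int0R : INT0 := fun _ _ _ _ _ h _ _ hk hi hj => int0 h hk hi hj

theorem iv_sub {A B : Type} [CommRing A] [Algebra ℝ A] [CommRing B] [Algebra ℝ B] {S : NS A B}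
    {k : ℕ} {a b : A} (ha : Iv S k a) (hb : Iv S k b) (c : ℝ) : Iv S k (a - c • b) :=
  ⟨by rw [GA.Dg, map_sub, map_smul, ha.1, hb.1],
    by rw [map_sub, map_smul, map_sub, map_smul, ha.2, hb.2, smul_zero, sub_zero]⟩

theorem hryR : HRY := by
  intro T V B i j h hd b e f he hf c
  have hT := h.th.ok
  have cV : ConnectedSpace V.X := h.cls.1.1
  have i1 : Iv (nsm (B.F j)) 1 (B.H i) := pow_one (B.H i) ▸ K336H.iv h 1
  have i1b : Iv (nsm (B.F j)) 1 (b • B.H i) :=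
    ⟨by rw [GA.Dg, map_smul, i1.1], by rw [map_smul, map_smul, i1.2, smul_zero]⟩
  have ty := (ty2 hT cV hd i1b he hf (by rw [c, smul_mul_assoc])).2.1
  have p := K336H.pos h (posj T hT B cV) hd (show _ = 5 by have := (B.Q {j}).dim; omega)
  obtain ⟨σ, hσ⟩ : ∃ σ : ℝ, σ * T.int V (B.H j ^ 2 * B.H i ^ 5) =
      T.int V (B.H j ^ 2 * (e * B.H i ^ 3)) := ⟨_, div_mul_cancel₀ _ p.ne'⟩
  rcases hry h hd (iv_sub he (K336H.iv h 2) σ)
    (sub_mem ty ((T.Ty V).smul_mem (pow_mem (nn_ty hT (B.nn i)) 2) σ)) (by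
      rw [show B.H j ^ 2 * B.H i ^ 3 * (e - σ • B.H i ^ 2) = B.H j ^ 2 * (e * B.H i ^ 3) -
        σ • (B.H j ^ 2 * B.H i ^ 5) by algebra, map_sub, map_smul, ← hσ, smul_eq_mul, sub_self])
    with k | k
  · exact Or.inl ⟨σ, sub_eq_zero.1 k⟩
  right
  rw [show B.H j ^ 2 * B.H i * (e - σ • B.H i ^ 2) ^ 2 = B.H j ^ 2 * (e ^ 2 * B.H i) -
    (2 * σ) • (B.H j ^ 2 * (e * B.H i ^ 3)) + σ ^ 2 • (B.H j ^ 2 * B.H i ^ 5) by algebra,
    map_add, map_sub, map_smul, map_smul, smul_eq_mul, smul_eq_mul, ← hσ] at k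
  rw [← hσ]
  nlinarith [mul_pos p k]

section alg
variable {A : Type} [CommRing A] [Algebra ℝ A]

theorem canc (c : ℝ) (hc : c ≠ 0) {a b : A} (h : c • a = c • b) : a = b :=
  smul_right_injective A hc h

/-- the power sums of the relative tangent bundle -/
theorem tnf {I : A →ₗ[ℝ] ℝ} {R : ℕ → A → Prop} {x g : A} {p t : ℕ → A} {f : A}
    (F : K2.Hf I R x g 2 p t (2 * g ^ 2) f) (c : x ^ 3 = 2 * g * x ^ 2 - 2 * g ^ 2 * x + g ^ 3)
    (g6 : g ^ 6 = 0) : t 1 = 3 * x - 2 * g ∧ t 2 = 3 * x ^ 2 - 4 * x * g ∧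
      t 3 = -6 * x * g ^ 2 + 4 * g ^ 3 ∧
      t 4 = -10 * x ^ 2 * g ^ 2 + 11 * x * g ^ 3 - 2 * g ^ 4 ∧
      t 5 = -7 * x ^ 2 * g ^ 3 + 24 * x * g ^ 4 - 16 * g ^ 5 ∧
      t 6 = 28 * x ^ 2 * g ^ 4 - 28 * x * g ^ 5 ∧ t 7 = 28 * x ^ 2 * g ^ 5 := by
  have e1 : t 1 = 3 * x - 2 * g := by rw [F.t1]; algebra
  have e2 : t 2 = 3 * x ^ 2 - 4 * x * g := by rw [F.t2]; algebra
  have a : ∀ k, t (k + 3) = (3 * x - 2 * g) * t (k + 2) -
      (3 * x ^ 2 - 4 * x * g + 2 * g ^ 2) * t (k + 1) := fun k => by rw [F.rc, e1]; algebra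
  have e3 : t 3 = -6 * x * g ^ 2 + 4 * g ^ 3 := by rw [a 0, e2, e1]; ring
  have e4 : t 4 = -10 * x ^ 2 * g ^ 2 + 11 * x * g ^ 3 - 2 * g ^ 4 := by
    rw [a 1, e2, e3]
    linear_combination (-9 * x + 6 * g) * c
  have e5 : t 5 = -7 * x ^ 2 * g ^ 3 + 24 * x * g ^ 4 - 16 * g ^ 5 := by
    rw [a 2, e3, e4]
    linear_combination (-12 * g ^ 2) * c
  have e6 : t 6 = 28 * x ^ 2 * g ^ 4 - 28 * x * g ^ 5 := by
    rw [a 3, e4, e5]
    linear_combination (30 * x * g ^ 2 - 34 * g ^ 3) * c + 2 * g6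
  have e7 : t 7 = 28 * x ^ 2 * g ^ 5 := by
    rw [a 4, e5, e6]
    linear_combination (21 * x * g ^ 3 + 26 * g ^ 4) * c + (-87 * x + 58 * g) * g6
  exact ⟨e1, e2, e3, e4, e5, e6, e7⟩

/-- the top Segre class -/
theorem seg7 {x g : A} {P h : ℕ → A} (c : x ^ 3 = 2 * g * x ^ 2 - 2 * g ^ 2 * x + g ^ 3)
    (g6 : g ^ 6 = 0) (p1 : P 1 = 3 * x + 3 * g) (p2 : P 2 = 3 * x ^ 2 - 4 * x * g + 3 * g ^ 2)
    (p3 : P 3 = -6 * x * g ^ 2 + 3 * g ^ 3)
    (p4 : P 4 = -10 * x ^ 2 * g ^ 2 + 11 * x * g ^ 3 - 11 * g ^ 4)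
    (p5 : P 5 = -7 * x ^ 2 * g ^ 3 + 24 * x * g ^ 4 - 41 * g ^ 5)
    (p6 : P 6 = 28 * x ^ 2 * g ^ 4 - 28 * x * g ^ 5) (p7 : P 7 = 28 * x ^ 2 * g ^ 5)
    (h0 : h 0 = 1) (hr : ∀ k : ℕ, ((k + 1 : ℕ) : ℝ) • h (k + 1) =
      ∑ i ∈ Finset.range (k + 1), P (i + 1) * h (k - i)) : h 7 = (-28 : ℝ) • (x ^ 2 * g ^ 5) := by
  have a1 := hr 0
  have a2 := hr 1
  have a3 := hr 2
  have a4 := hr 3
  have a5 := hr 4
  have a6 := hr 5
  have a7 := hr 6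
  simp only [Finset.sum_range_succ, Finset.sum_range_zero, Nat.reduceAdd, Nat.reduceSub, zero_add,
    Nat.cast_ofNat, Nat.cast_one, one_smul, p1, p2, p3, p4, p5, p6, p7, h0, Nat.sub_zero,
    Nat.sub_self] at a1 a2 a3 a4 a5 a6 a7
  have e2 : h 2 = 6 * x ^ 2 + 7 * x * g + 6 * g ^ 2 := canc 2 (by norm_num) (by
    rw [a2, a1]
    algebra)
  have e3 : h 3 = 30 * x ^ 2 * g - 8 * x * g ^ 2 + 19 * g ^ 3 := canc 3 (by norm_num) (by
    rw [a3, a1, e2]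
    linear_combination (norm := algebra) 27 * c)
  have e4 : h 4 = 64 * x ^ 2 * g ^ 2 - 49 * x * g ^ 3 + 49 * g ^ 4 := canc 4 (by norm_num) (by
    rw [a4, a1, e2, e3]
    linear_combination (norm := algebra) (18 * x + 123 * g) * c)
  have e5 : h 5 = 68 * x ^ 2 * g ^ 3 - 65 * x * g ^ 4 + 62 * g ^ 5 := canc 5 (by norm_num) (by
    rw [a5, a1, e2, e3, e4]
    linear_combination (norm := algebra) (90 * x * g + 162 * g ^ 2) * c)
  have e6 : h 6 = 28 * x ^ 2 * g ^ 4 - 28 * x * g ^ 5 := canc 6 (by norm_num) (by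
    rw [a6, a1, e2, e3, e4, e5]
    linear_combination (norm := algebra) (132 * x * g ^ 2 - 140 * g ^ 3) * c + 61 * g6)
  refine canc 7 (by norm_num) ?_
  rw [a7, a1, e2, e3, e4, e5, e6]
  linear_combination (norm := algebra) (-138 * x * g ^ 3 - 454 * g ^ 4) * c +
    (-128 * x - 576 * g) * g6

theorem rpow {I : A →ₗ[ℝ] ℝ} {R : ℕ → A → Prop} {x g : A} {b : ℝ} {p t : ℕ → A} {e f : A}
    (F : K2.Hf I R x g b p t e f) : ∀ k, R (k + 1) (g ^ (k + 1))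
  | 0 => (pow_one g).symm ▸ F.hg
  | k + 1 => pow_succ g (k + 1) ▸ F.mul _ _ _ _ (rpow F k) F.hg

end alg

theorem fiR : FI := by
  intro A _ _ I R R' x g b c p t t' e f e' f' k hb hc he he' h h0 hr
  subst hb hc he he'
  obtain ⟨l, r, i0⟩ := k
  have ig := rpow l
  have ix := rpow r
  have g6 := l.van 6 _ (by omega) (ig 5)
  have x6 := r.van 6 _ (by omega) (ix 5)
  have ef : f + (-1 : ℝ) • g ^ 3 = 0 := i0 3 _ (by omega) (l.add _ _ _ l.hf (l.smul _ _ _ (ig 2)))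
    (by
      rw [show f + (-1 : ℝ) • g ^ 3 = x ^ 3 + (-1 : ℝ) • f' by
        linear_combination (norm := algebra) -l.cub - r.cub]
      exact r.add _ _ _ (ix 2) (r.smul _ _ _ r.hf))
  have c : x ^ 3 = 2 * g * x ^ 2 - 2 * g ^ 2 * x + g ^ 3 := by
    linear_combination (norm := algebra) l.cub + ef
  obtain ⟨t1, t2, t3, t4, t5, t6, t7⟩ := tnf l c g6
  obtain ⟨s1, s2, s3, s4, s5, -, -⟩ := tnf r (by linear_combination -c) x6
  have key : ∀ k (s : ℝ), t (k + 1) + s • g ^ (k + 1) = t' (k + 1) + s • x ^ (k + 1) →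
      p (k + 1) = t (k + 1) + s • g ^ (k + 1) := fun k s e => by
    have a := l.add _ _ _ (l.inv (k + 1)) (l.smul _ (-s) _ (ig k))
    have b := r.add _ _ _ (r.inv (k + 1)) (r.smul _ (-s) _ (ix k))
    rw [neg_smul, ← sub_eq_add_neg, sub_sub] at a b
    exact sub_eq_zero.1 (i0 _ _ (by omega) a (e ▸ b))
  have hi : ∀ k, 5 < k → p k = t k := fun k k0 => sub_eq_zero.1 (l.van k _ k0 (l.inv k))
  rw [seg7 (P := p) c g6
    (by rw [key 0 5 (by rw [t1, s1]; algebra), t1]; algebra)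
    (by rw [key 1 3 (by rw [t2, s2]; algebra), t2]; algebra)
    (by rw [key 2 (-1) (by
      rw [t3, s3]; linear_combination (norm := algebra) -3 * c), t3]; algebra)
    (by rw [key 3 (-9) (by
      rw [t4, s4]; linear_combination (norm := algebra) (11 * x + 11 * g) * c), t4]; algebra)
    (by
      rw [key 4 (-25) (by
        rw [t5, s5]
        linear_combination (norm := algebra) (41 * x ^ 2 + 58 * x * g + 41 * g ^ 2) * c), t5]
      algebra)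
    ((hi 6 (by omega)).trans t6) ((hi 7 (by omega)).trans t7) h0 hr, map_smul, smul_eq_mul]
  linarith [l.pos]

end Vale.Agent.P280X.K2.R75
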