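import Vale.Agent.P280X.K2.Defs

/-!
# P280X, block K2: row TW
-/

namespace Vale.Agent.P280X.K2

namespace TwH

variable {A : Type} [CommRing A] [Algebra ℝ A] {I : A →ₗ[ℝ] ℝ} {R : ℕ → A → Prop} {x g : A}
  {b : ℝ} {p t : ℕ → A} {e f : A}

theorem g2 (h : Hf I R x g b p t e f) : R 2 (g ^ 2) := by
  rw [sq]
  exact h.mul 1 1 _ _ h.hg h.hg

theorem g3 (h : Hf I R x g b p t e f) : R 3 (g ^ 3) := by
  rw [pow_succ]
  exact h.mul 2 1 _ _ (g2 h) h.hg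

theorem g4 (h : Hf I R x g b p t e f) : R 4 (g ^ 4) := by
  rw [pow_succ]
  exact h.mul 3 1 _ _ (g3 h) h.hg

theorem mom (h : Hf I R x g b p t e f) : I (x ^ 3 * g ^ 4) = b * I (x ^ 2 * g ^ 5) ∧
    I (x ^ 4 * g ^ 3) = b ^ 2 * I (x ^ 2 * g ^ 5) - I (x ^ 2 * (e * g ^ 3)) ∧
    I (x ^ 5 * g ^ 2) = b ^ 3 * I (x ^ 2 * g ^ 5) - 2 * b * I (x ^ 2 * (e * g ^ 3)) +
      I (x ^ 2 * (f * g ^ 2)) ∧
    I (x ^ 6 * g) = b ^ 4 * I (x ^ 2 * g ^ 5) - 3 * b ^ 2 * I (x ^ 2 * (e * g ^ 3)) +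
      2 * b * I (x ^ 2 * (f * g ^ 2)) + I (x ^ 2 * (e ^ 2 * g)) := by
  have cub := h.cub
  have z2 := h.van _ _ (by norm_num) (h.mul _ _ _ _ (g4 h) h.he)
  have z3 := h.van _ _ (by norm_num) (h.mul _ _ _ _ (g2 h) (h.mul _ _ _ _ h.he h.he))
  have z5 := h.van _ _ (by norm_num) (h.mul _ _ _ _ (g3 h) h.hf)
  have z6 := h.van _ _ (by norm_num) (h.mul _ _ _ _ h.hg (h.mul _ _ _ _ h.he h.hf))
  have z7 := h.van _ _ (by norm_num) (h.mul _ _ _ _ h.hf h.hf)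
  refine ⟨?_, ?_, ?_, ?_⟩
  · rw [show x ^ 3 * g ^ 4 = b • (x ^ 2 * g ^ 5) by
      linear_combination (norm := algebra) g ^ 4 * cub - x * z2 + g * z5, map_smul, smul_eq_mul]
  · rw [show x ^ 4 * g ^ 3 = b ^ 2 • (x ^ 2 * g ^ 5) - x ^ 2 * (e * g ^ 3) by
      linear_combination (norm := algebra) (b • g ^ 4 + x * g ^ 3) * cub + (b • g + x) * z5 -
        (b • x) * z2, map_sub, map_smul, smul_eq_mul]
  · rw [show x ^ 5 * g ^ 2 = b ^ 3 • (x ^ 2 * g ^ 5) - (2 * b) • (x ^ 2 * (e * g ^ 3)) +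
        x ^ 2 * (f * g ^ 2) by
      linear_combination (norm := algebra)
        (b ^ 2 • g ^ 4 + b • (x * g ^ 3) + x ^ 2 * g ^ 2 - g ^ 2 * e) * cub +
        (b ^ 2 • g + b • x) * z5 + x * z3 - g * z6 - (b ^ 2 • x) * z2]
    simp only [map_add, map_sub, map_smul, smul_eq_mul]
  · rw [show x ^ 6 * g = b ^ 4 • (x ^ 2 * g ^ 5) - (3 * b ^ 2) • (x ^ 2 * (e * g ^ 3)) +
        (2 * b) • (x ^ 2 * (f * g ^ 2)) + x ^ 2 * (e ^ 2 * g) by
      linear_combination (norm := algebra)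
        (b ^ 3 • g ^ 4 + b ^ 2 • (x * g ^ 3) + b • (x ^ 2 * g ^ 2) - (2 * b) • (g ^ 2 * e) +
          x ^ 3 * g - x * g * e + g * f) * cub - ((2 * b) • g + 2 * x) * z6 +
        (b ^ 3 • g + b ^ 2 • x) * z5 + g * z7 + ((2 * b) • x) * z3 - (b ^ 3 • x) * z2]
    simp only [map_add, map_sub, map_smul, smul_eq_mul]

theorem p3 (h : Hf I R x g b p t e f) : ∃ s, R 3 s ∧ p 3 = 9 * x ^ 3 + 9 * g ^ 3 -
    (9 * b) • (x ^ 2 * g) + (3 * b ^ 2) • (x * g ^ 2) + s := by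
  refine ⟨(p 3 - t 3) + ((-9 : ℝ) • f + ((-9 - b ^ 3) • g ^ 3 + (3 * b) • (g * e))),
    h.add _ _ _ (h.inv 3) (h.add _ _ _ (h.smul _ _ _ h.hf) (h.add _ _ _ (h.smul _ _ _ (g3 h))
      (h.smul _ _ _ (h.mul 1 2 _ _ h.hg h.he)))), ?_⟩
  have k := h.rc 0
  simp only [zero_add] at k
  rw [k, h.t2, h.t1]
  linear_combination (norm := algebra) (-9 : A) * h.cub

theorem rx (h : Hf I R x g b p t e f) {r : A} (hr : R 3 r) :
    r * x ^ 3 * g = b • (r * x ^ 2 * g ^ 2) := by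
  have z9 := h.van _ _ (by norm_num) (h.mul _ _ _ _ h.hg (h.mul _ _ _ _ h.he hr))
  have z10 := h.van _ _ (by norm_num) (h.mul _ _ _ _ h.hf hr)
  linear_combination (norm := algebra) (g * r) * h.cub - x * z9 + g * z10

end TwH

open TwH in
theorem tw : TW := by
  intro A _ _ I R R' x g b c p t t' e f e' f' h bc b0
  subst bc
  obtain ⟨s, s1, s2⟩ := p3 h.l
  obtain ⟨s', s3, s4⟩ := p3 h.r
  have k0 : 9 * b + 3 * b ^ 2 ≠ 0 := by positivity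
  obtain ⟨r, hr, hw⟩ : ∃ r, R 3 r ∧ R' 3 (x ^ 2 * g - x * g ^ 2 - r) := by
    refine ⟨(9 * b + 3 * b ^ 2)⁻¹ • s, h.l.smul _ _ _ s1, ?_⟩
    have k : (9 * b + 3 * b ^ 2) • (x ^ 2 * g - x * g ^ 2) = s - s' := by
      linear_combination (norm := algebra) s2 - s4
    rw [show x ^ 2 * g - x * g ^ 2 = (9 * b + 3 * b ^ 2)⁻¹ • (s - s') by
      rw [← k, smul_smul, inv_mul_cancel₀ k0, one_smul], smul_sub, sub_sub_cancel_left, ← neg_smul]
    exact h.r.smul _ _ _ s3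
  have w1 := h.r.van _ _ (by norm_num) (h.r.mul _ _ _ _ hw (g3 h.r))
  have w2 := h.r.van _ _ (by norm_num) (h.r.mul _ _ _ _ hw hw)
  have x6 := h.r.van _ _ (by norm_num) (h.r.mul _ _ _ _ (g3 h.r) (g3 h.r))
  have r1 := rx h.l hr
  have r2 := h.l.van _ _ (by norm_num) (h.l.mul _ _ _ _ hr hr)
  have r3 := h.l.van _ _ (by norm_num) (h.l.mul _ _ _ _ hr (g3 h.l))
  have a1 : I (x ^ 5 * g ^ 2) - I (x ^ 4 * g ^ 3) = b * I (r * x ^ 2 * g ^ 2) := by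
    rw [← map_sub, ← smul_eq_mul b, ← map_smul, ← r1]
    exact congrArg I (by linear_combination g * w1)
  have a2 : I (x ^ 4 * g ^ 3) + I (x ^ 2 * g ^ 5) =
      2 * (I (x ^ 3 * g ^ 4) + I (r * x ^ 2 * g ^ 2)) := by
    rw [← map_add, ← map_add, two_mul, ← map_add]
    exact congrArg I (by linear_combination g * w2 - g * r2 - 2 * x * r3)
  have a3 : I (x ^ 5 * g ^ 2) + I (x ^ 3 * g ^ 4) + 2 * I (r * x ^ 2 * g ^ 2) =
      2 * (I (x ^ 4 * g ^ 3) + b * I (r * x ^ 2 * g ^ 2)) := by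
    rw [← smul_eq_mul b, ← map_smul, ← r1, two_mul, two_mul]
    simp only [← map_add]
    exact congrArg I (by linear_combination x * w2 - x * r2)
  obtain ⟨m3, m4, m5, m6⟩ := mom h.l
  have m := (mom h.r).1
  rw [mul_comm (g ^ 3), mul_comm (g ^ 2)] at m
  rw [show x ^ 6 * g = 0 by linear_combination g * x6, map_zero] at m6
  have D := h.l.pos
  have hr' := h.l.hr
  have sg : ∀ σ : ℝ, e = σ • g ^ 2 → I (x ^ 2 * (e * g ^ 3)) = σ * I (x ^ 2 * g ^ 5) ∧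
      I (x ^ 2 * (e ^ 2 * g)) = σ ^ 2 * I (x ^ 2 * g ^ 5) := by
    rintro σ rfl
    rw [← smul_eq_mul σ, ← smul_eq_mul (σ ^ 2), ← map_smul, ← map_smul]
    exact ⟨congrArg I (by algebra), congrArg I (by algebra)⟩
  generalize I (x ^ 2 * g ^ 5) = v2, I (x ^ 3 * g ^ 4) = v3, I (x ^ 4 * g ^ 3) = v4,
    I (x ^ 5 * g ^ 2) = v5, I (r * x ^ 2 * g ^ 2) = ρ, I (x ^ 2 * (e * g ^ 3)) = E,
    I (x ^ 2 * (f * g ^ 2)) = F, I (x ^ 2 * (e ^ 2 * g)) = Q at *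
  have c1 : v4 - v5 = b * v2 - v2 := by linarith
  have c2 : b * v4 = (2 * b ^ 2 - 3 * b + 2) * v2 := by
    linear_combination b * a2 + 2 * b * m3 - 2 * a1 - 2 * c1
  by_cases b1 : b = 1
  · subst b1
    have q1 : E = 0 := by linarith
    have q2 : Q = -v2 := by linarith
    exfalso
    rcases hr' with ⟨σ, k⟩ | k
    · obtain ⟨k1, k2⟩ := sg σ k
      nlinarith [mul_nonneg (sq_nonneg σ) D.le]
    · rw [q1, q2] at k
      nlinarith [mul_pos D D]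
  have q0 : v5 = v2 := mul_left_cancel₀ (sub_ne_zero.2 b1) (by linear_combination c1 - m)
  have b2 : b = 2 := sub_eq_zero.1 (mul_left_cancel₀ (mul_ne_zero (sub_ne_zero.2 b1) D.ne')
    (by linear_combination b * m + b ^ 2 * q0 - c2 : (b - 1) * v2 * (b - 2) = (b - 1) * v2 * 0))
  subst b2
  have q1 : E = 2 * v2 := by linarith
  have q2 : Q = 4 * v2 := by linarith
  refine ⟨rfl, ?_⟩
  rcases hr' with ⟨σ, k⟩ | k
  · obtain rfl : σ = 2 := mul_right_cancel₀ D.ne' (by linarith [(sg σ k).1])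
    rw [k]
    algebra
  · rw [q1, q2] at k
    exact (k.ne (by ring)).elim

end Vale.Agent.P280X.K2
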