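import Vale.Agent.P280X.K2.Defs

/-!
# P280X, block K2: row ZE
-/

namespace Vale.Agent.P280X.K2

theorem ze : ZE := by
  intro A _ _ I R R' x g b c p t t' e f e' f' h hb hc
  subst hb hc
  have l := h.l
  have r := h.r
  have cub : x ^ 3 = f - e * x := by linear_combination (norm := algebra) l.cub
  have x2 := r.mul 1 1 _ _ r.hg r.hg
  have x3 := r.mul 2 1 _ _ x2 r.hg
  have x6 := r.van _ _ (by norm_num) (r.mul 3 3 _ _ x3 x3)
  have ef := l.van _ _ (by norm_num) (l.mul _ _ _ _ (l.mul _ _ _ _ l.he l.hf) l.hg)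
  have ff := l.van _ _ (by norm_num) (l.mul _ _ _ _ l.hf l.hf)
  have z : x ^ 2 * (e ^ 2 * g) = 0 := by
    linear_combination g * x6 - (x ^ 3 + f - e * x) * g * cub + 2 * x * ef - g * ff
  have e0 : e = 0 := by
    rcases l.hr with ⟨σ, hσ⟩ | k
    · have k : x ^ 2 * (e ^ 2 * g) = (σ ^ 2) • (x ^ 2 * g ^ 5) := by
        rw [hσ]; algebra
      have k2 := congrArg I k
      rw [z, map_zero, map_smul, smul_eq_mul] at k2
      have s0 : σ = 0 := by
        rcases mul_eq_zero.1 k2.symm with k3 | k3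
        · exact pow_eq_zero_iff two_ne_zero |>.1 k3
        · exact absurd k3 l.pos.ne'
      rw [hσ, s0, zero_smul]
    · rw [z, map_zero, mul_zero] at k
      exact absurd k (not_lt.2 (sq_nonneg _))
  have xf : x * x * x = f := by linear_combination cub - x * e0
  have f0 : x * x * x = 0 := h.int0 3 _ (by norm_num) (xf ▸ l.hf) x3
  have k := r.pos
  rw [show g ^ 2 * x ^ 5 = 0 by linear_combination g ^ 2 * x ^ 2 * f0, map_zero] at k
  exact lt_irrefl _ k

end Vale.Agent.P280X.K2
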