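import Vale.Agent.P280X.K2.R75
import Vale.Agent.P280X.K2.Ne
import Vale.Agent.P280X.K2.Ze
import Vale.Agent.P280X.K2.Tw

/-!
# P280X, block K2: the case `(2, 2; 7)` from the cubic relation
-/

open Set
open Vale.Agent.P272.K Vale.Agent.P285.H281.FD Vale.Agent.P281Z
open Vale.Agent.P280Z Vale.Agent.P280Z.Rh Vale.Agent.P280Z.Ma Vale.Agent.P280Z.Pr

noncomputable section

namespace Vale.Agent.P280X.K2.R75

/-- the cubic relation -/
def CUB : Prop := ∀ T : CT, Th T → ∀ {n : ℕ} {V : Mf n} (B : Bas T V), Cls n V → ∀ j,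
  (B.F j).m = 1 → (B.Q {j}).d = 2 → ∀ {x g}, Un (nsm (B.F j)) x →
  g = 3 * x - tr T (B.Q {j}).sub.hol 1 → ∃ e2 e3, Iv (nsm (B.F j)) 2 e2 ∧ Iv (nsm (B.F j)) 3 e3 ∧
    3 * tr T (B.Q {j}).sub.hol 2 - tr T (B.Q {j}).sub.hol 1 ^ 2 = 2 * g ^ 2 - 6 * e2 ∧
    x ^ 3 = g * x ^ 2 - e2 * x + e3

theorem geo75 (cub : CUB) : GEO := by
  intro T V B i j h hd
  have hT := h.th.ok
  have cV : ConnectedSpace V.X := h.cls.1.1
  have hm := (P280W.cm_two h.th B h.cls (h.pos j) hd).1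
  have hy : (B.Q {j}).y = 5 := by have := (B.Q {j}).dim; omega
  have F := K226H.fa_cast (fax T hT B.F j (B.Q {j}) cV) hm hd hy
  have su : ∀ f : B.J → T.H V, ∑ k, f k = f j + f i := fun f => by
    rw [show (Finset.univ : Finset B.J) = {j, i} from Finset.ext fun k => by
      simpa using (h.all k).symm, Finset.sum_pair h.ne.symm]
  obtain ⟨b, t1⟩ : ∃ b : ℝ, tr T (B.Q {j}).sub.hol 1 = 3 * B.H j - b • B.H i := by
    refine ⟨-(B.F i).dg (tr T (B.Q {j}).sub.hol 1), ?_⟩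
    have e : (B.F j).dg (tr T (B.Q {j}).sub.hol 1) = 3 := by
      rw [tr, map_sub, (B.F j).c1, (B.Q {j}).dg_pull hT rfl (hT.ch.deg _ _ 1), hm]
      norm_num
    have s := B.span _ (F.dt 1)
    rw [su, e] at s
    linear_combination (norm := algebra) s
  obtain ⟨e, f, he, hf, t2, c⟩ := cub T h.th B h.cls j hm hd (prj_un hT B j)
    (g := b • B.H i) (by rw [t1, sub_sub_cancel])
  rw [smul_mul_assoc] at c
  have e2 : tr T (B.Q {j}).sub.hol 2 = 3 * B.H j ^ 2 - (2 * b) • (B.H j * B.H i) +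
      b ^ 2 • B.H i ^ 2 - 2 * e := canc 3 (by norm_num) (by
    rw [t1] at t2
    linear_combination (norm := algebra) t2)
  have z := F.rank _ (Al.Cn.ne_spec _)
  obtain ⟨a2, a3, a4⟩ := AlgH.nw (s := tr T (B.Q {j}).sub.hol) fun j hj => z j (by omega)
  simp only [z 3 (by norm_num), zero_mul, add_zero] at a3 a4
  have f2 : Al.Cn.ne (tr T (B.Q {j}).sub.hol) 2 =
      3 * B.H j ^ 2 - (2 * b) • (B.H j * B.H i) + e := canc 2 (by norm_num) (by
    rw [t1, e2] at a2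
    linear_combination (norm := algebra) a2)
  rw [f2] at a3 a4
  refine ⟨b, e, f, fun _ _ _ _ => RdH.iv_mul F.ok, fun k u v hu hv => ?_, fun k c u hu => ?_,
    F.van, pow_one (B.H i) ▸ K336H.iv h 1, he, hf, c, t1, e2, fun k => ?_, fun k => ?_,
    K336H.pos h (posj T hT B cV) hd hy, hT.po.wp_int (wp_pow hT (B.nn j)
      (mul_one (B.H i ^ 4) ▸ wp_pow hT (B.nn i) (hT.po.wp_one V) 4) 3),
    hryR T V B i j h hd b e f he hf c⟩
  · exact ⟨by rw [GA.Dg, map_add, hu.1, hv.1], by rw [map_add, map_add, hu.2, hv.2, add_zero]⟩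
  · exact ⟨by rw [GA.Dg, map_smul, hu.1], by rw [map_smul, map_smul, hu.2, smul_zero]⟩
  · cases k with
    | zero => exact a3
    | succ k => exact a4 k
  · rw [tr, sub_sub_cancel]
    exact FaxH.iv_pull (B.Q {j}) hT (hT.ch.deg _ _ k)

theorem k227_cub (cub : CUB) (seg : P280W.SEG) : P280W.K227 :=
  asm ne ze tw fiR int0R (geo75 cub) fun T th V => seg T th V

end Vale.Agent.P280X.K2.R75
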