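import Vale.Agent.P280X.K2.Defs

/-!
# P280X, block K2: the row ZE
-/

noncomputable section

namespace Vale.Agent.P280X.K2

/-- row ZE -/
theorem ze2 : ZE := by
  intro A _ _ I R R' x g b c p t t' e f e' f' h hb _
  have l := h.l
  have r := h.r
  have x2 := r.mul 1 1 _ _ r.hg r.hg
  have x3 := r.mul 2 1 _ _ x2 r.hg
  have x6 := r.van _ _ (by norm_num) (r.mul 3 3 _ _ x3 x3)
  have ff := l.van _ _ (by norm_num) (l.mul 3 3 _ _ l.hf l.hf)
  have efg := l.van _ _ (by norm_num) (l.mul 5 1 _ _ (l.mul 2 3 _ _ l.he l.hf) l.hg)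
  have cub : x ^ 3 = f - e * x := by
    rw [l.cub, hb, zero_smul]
    ring
  have k : x ^ 2 * (e ^ 2 * g) = 0 := by
    linear_combination g * x6 - g * (x ^ 3 + f - e * x) * cub - g * ff + 2 * x * efg
  rcases l.hr with ⟨σ, hσ⟩ | hr
  · have k1 : x ^ 2 * (e ^ 2 * g) = σ ^ 2 • (x ^ 2 * g ^ 5) := by
      rw [hσ]
      simp only [Algebra.smul_def, map_pow]
      ring
    have k2 := congrArg I (k1.symm.trans k)
    rw [map_smul, map_zero, smul_eq_mul] at k2
    have s0 : σ = 0 := pow_eq_zero_iff (two_ne_zero) |>.1 ((mul_eq_zero.1 k2).resolve_right l.pos.ne')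
    rw [s0, zero_smul] at hσ
    have e3 : x * x * x = f := by
      rw [hσ] at cub
      linear_combination cub
    have z := h.int0 3 _ (by norm_num) (e3 ▸ l.hf) x3
    have pos := r.pos
    rw [show g ^ 2 * x ^ 5 = 0 by linear_combination g ^ 2 * x ^ 2 * z, map_zero] at pos
    exact lt_irrefl _ pos
  · rw [k, map_zero, mul_zero] at hr
    exact hr.not_ge (sq_nonneg _)

end Vale.Agent.P280X.K2
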